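import Mathlib
import Vale.Agent.Lib.P249.helper68.GridDefs

/-!
# P249, grid lower bound, step (M): the fourth-moment bound

A Poincare inequality on the box `{0,…,m-1}^k` (hypothesis `hP`), applied to `F` and to the
square of the centred function, bounds the fourth moment of the differences of a function
whose discrete gradient has squared length at most `Λ ^ 2` everywhere.
-/

namespace Vale.Agent.Lib.P249.H61

open Vale.Agent.Lib.P249.H68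

/-- The box `{0,…,m-1}^k` has `m ^ k` points. -/
theorem card_box (k m : ℕ) : ((H68.box k m).card : ℝ) = (m : ℝ) ^ k := by
  unfold H68.box
  rw [Fintype.card_piFinset]
  simp

/-- The sum of squared differences over all ordered pairs. -/
theorem var_identity {α : Type*} (B : Finset α) (f : α → ℝ) :
    ∑ x ∈ B, ∑ y ∈ B, (f x - f y) ^ 2
      = 2 * (B.card : ℝ) * ∑ x ∈ B, f x ^ 2 - 2 * (∑ x ∈ B, f x) ^ 2 := by
  have h1 : ∀ x ∈ B, ∑ y ∈ B, (f x - f y) ^ 2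
      = (B.card : ℝ) * f x ^ 2 - 2 * f x * (∑ y ∈ B, f y) + ∑ y ∈ B, f y ^ 2 := by
    intro x _
    have h2 : ∀ y, (f x - f y) ^ 2 = f x ^ 2 - 2 * f x * f y + f y ^ 2 := fun y => by ring
    simp only [h2]
    rw [Finset.sum_add_distrib, Finset.sum_sub_distrib, Finset.sum_const, nsmul_eq_mul,
      ← Finset.mul_sum]
  rw [Finset.sum_congr rfl h1, Finset.sum_add_distrib, Finset.sum_sub_distrib,
    Finset.sum_const, nsmul_eq_mul, ← Finset.mul_sum, ← Finset.sum_mul, ← Finset.mul_sum]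
  ring

theorem aux_sq (a d L : ℝ) (hd : d ^ 2 ≤ L ^ 2) : (2 * a + d) ^ 2 ≤ 8 * a ^ 2 + 2 * L ^ 2 := by
  nlinarith [sq_nonneg (2 * a - d)]

theorem aux_four (a b : ℝ) : (a - b) ^ 4 ≤ 8 * (a ^ 4 + b ^ 4) := by
  nlinarith [sq_nonneg ((a + b) ^ 2), sq_nonneg (a ^ 2 - b ^ 2)]

/-- The arithmetic of step (M), on real numbers. -/
theorem aux_arith (P N L Q T : ℝ) (hP1 : 1 ≤ P) (hN : 0 < N) (hQ0 : 0 ≤ Q)
    (h1 : Q ≤ P * L ^ 2 * N / 2)
    (h2 : 2 * N * T ≤ 2 * Q ^ 2 + P * N * (L ^ 2 * (8 * Q + 2 * L ^ 2 * N))) :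
    T ≤ (13 / 4) * P ^ 2 * L ^ 4 * N := by
  have hL2 : 0 ≤ L ^ 2 := sq_nonneg L
  have hPN : 0 ≤ P * N := by positivity
  have hQ2 : Q ^ 2 ≤ (P * L ^ 2 * N / 2) ^ 2 := pow_le_pow_left₀ hQ0 h1 2
  have e8 : P * N * (L ^ 2 * (8 * Q)) ≤ P * N * (L ^ 2 * (8 * (P * L ^ 2 * N / 2))) := by
    apply mul_le_mul_of_nonneg_left _ hPN
    apply mul_le_mul_of_nonneg_left _ hL2
    linarith
  have hnn : (0 : ℝ) ≤ 2 * L ^ 4 * N ^ 2 := by positivity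
  have e9 : P * (2 * L ^ 4 * N ^ 2) ≤ P * P * (2 * L ^ 4 * N ^ 2) := by
    have : P * (2 * L ^ 4 * N ^ 2) ≤ P * P * (2 * L ^ 4 * N ^ 2) := by
      have hP0 : 0 ≤ P := by linarith
      have := mul_le_mul_of_nonneg_right hP1 (mul_nonneg hP0 hnn)
      linarith
    exact this
  have e10 : N * (2 * T) ≤ N * (2 * ((13 / 4) * P ^ 2 * L ^ 4 * N)) := by
    have e2' : 2 * N * T ≤ 2 * Q ^ 2 + P * N * (L ^ 2 * (8 * Q)) + P * (2 * L ^ 4 * N ^ 2) := by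
      have : P * N * (L ^ 2 * (8 * Q + 2 * L ^ 2 * N))
          = P * N * (L ^ 2 * (8 * Q)) + P * (2 * L ^ 4 * N ^ 2) := by ring
      linarith
    have e3 : 2 * (P * L ^ 2 * N / 2) ^ 2 + P * N * (L ^ 2 * (8 * (P * L ^ 2 * N / 2)))
        + P * P * (2 * L ^ 4 * N ^ 2) = N * (2 * ((13 / 4) * P ^ 2 * L ^ 4 * N)) := by ring
    linarith
  have := le_of_mul_le_mul_left e10 hN
  linarith

/-- Step (M): the fourth-moment bound from the Poincare inequality `hP` on the box. -/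
theorem fourth_moment (k m : ℕ) (hm : 1 ≤ m)
    (hP : ∀ F : (Fin k → ℤ) → ℝ,
      ∑ x ∈ H68.box k m, ∑ y ∈ H68.box k m, (F x - F y) ^ 2 ≤
        (m : ℝ) ^ 2 * (m : ℝ) ^ k
          * ∑ x ∈ H68.box k m, ∑ i, (F (x + Pi.single i 1) - F x) ^ 2)
    (F : (Fin k → ℤ) → ℝ) (Λ : ℝ) (hΛ : 0 ≤ Λ)
    (hF : ∀ z, ∑ i, (F (z + Pi.single i 1) - F z) ^ 2 ≤ Λ ^ 2) :
    ∑ x ∈ H68.box k m, ∑ y ∈ H68.box k m, (F x - F y) ^ 4 ≤
      52 * (m : ℝ) ^ 4 * Λ ^ 4 * ((m : ℝ) ^ k) ^ 2 := by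
  have hm1 : (1 : ℝ) ≤ (m : ℝ) := by exact_mod_cast hm
  have hcard := card_box k m
  generalize H68.box k m = B at hP hcard ⊢
  generalize hN : (m : ℝ) ^ k = N at hP hcard ⊢
  have hNpos : 0 < N := by
    rw [← hN]
    positivity
  obtain ⟨c, hc⟩ : ∃ c : ℝ, c = (∑ x ∈ B, F x) / N := ⟨_, rfl⟩
  obtain ⟨h, hh⟩ : ∃ h : (Fin k → ℤ) → ℝ, ∀ x, h x = F x - c := ⟨fun x => F x - c, fun _ => rfl⟩
  have hsum0 : ∑ x ∈ B, h x = 0 := by
    simp only [hh, Finset.sum_sub_distrib, Finset.sum_const, nsmul_eq_mul, hcard]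
    rw [hc]
    field_simp
    ring
  have hd : ∀ x i, h (x + Pi.single i 1) - h x = F (x + Pi.single i 1) - F x := by
    intro x i
    rw [hh, hh]
    ring
  have hF' : ∀ z, ∑ i, (h (z + Pi.single i 1) - h z) ^ 2 ≤ Λ ^ 2 := by
    intro z
    simp only [hd]
    exact hF z
  have hsingle : ∀ z i, (h (z + Pi.single i 1) - h z) ^ 2 ≤ Λ ^ 2 := by
    intro z i
    refine le_trans ?_ (hF' z)
    exact Finset.single_le_sum (f := fun i => (h (z + Pi.single i 1) - h z) ^ 2)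
      (fun j _ => sq_nonneg _) (Finset.mem_univ i)
  obtain ⟨Q, hQ⟩ : ∃ Q : ℝ, Q = ∑ x ∈ B, h x ^ 2 := ⟨_, rfl⟩
  have hQ0 : 0 ≤ Q := by
    rw [hQ]
    exact Finset.sum_nonneg fun x _ => sq_nonneg _
  have hmN : (0 : ℝ) ≤ (m : ℝ) ^ 2 * N := by positivity
  -- Step 1: the second moment of the centred function.
  have step1 : Q ≤ (m : ℝ) ^ 2 * Λ ^ 2 * N / 2 := by
    have e1 := hP h
    rw [var_identity, hcard, hsum0, ← hQ] at e1
    have e2 : ∑ x ∈ B, ∑ i, (h (x + Pi.single i 1) - h x) ^ 2 ≤ N * Λ ^ 2 := by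
      calc ∑ x ∈ B, ∑ i, (h (x + Pi.single i 1) - h x) ^ 2
          ≤ ∑ x ∈ B, Λ ^ 2 := Finset.sum_le_sum fun x _ => hF' x
        _ = N * Λ ^ 2 := by rw [Finset.sum_const, nsmul_eq_mul, hcard]
    have e3 := mul_le_mul_of_nonneg_left e2 hmN
    have e4 : N * (2 * Q) ≤ N * ((m : ℝ) ^ 2 * Λ ^ 2 * N) := by linarith
    have e5 := le_of_mul_le_mul_left e4 hNpos
    linarith
  -- Step 2: the Poincare inequality for the square of the centred function.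
  obtain ⟨g, hg⟩ : ∃ g : (Fin k → ℤ) → ℝ, ∀ x, g x = h x ^ 2 := ⟨fun x => h x ^ 2, fun _ => rfl⟩
  have hgi : ∀ x i, (g (x + Pi.single i 1) - g x) ^ 2
      ≤ (h (x + Pi.single i 1) - h x) ^ 2 * (8 * h x ^ 2 + 2 * Λ ^ 2) := by
    intro x i
    have e : g (x + Pi.single i 1) - g x
        = (h (x + Pi.single i 1) - h x) * (2 * h x + (h (x + Pi.single i 1) - h x)) := by
      rw [hg, hg]
      ring
    rw [e, mul_pow]
    exact mul_le_mul_of_nonneg_left (aux_sq _ _ _ (hsingle x i)) (sq_nonneg _)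
  have e4 : ∀ x ∈ B, ∑ i, (g (x + Pi.single i 1) - g x) ^ 2
      ≤ Λ ^ 2 * (8 * h x ^ 2 + 2 * Λ ^ 2) := by
    intro x _
    calc ∑ i, (g (x + Pi.single i 1) - g x) ^ 2
        ≤ ∑ i, (h (x + Pi.single i 1) - h x) ^ 2 * (8 * h x ^ 2 + 2 * Λ ^ 2) :=
          Finset.sum_le_sum fun i _ => hgi x i
      _ = (∑ i, (h (x + Pi.single i 1) - h x) ^ 2) * (8 * h x ^ 2 + 2 * Λ ^ 2) := by
          rw [Finset.sum_mul]
      _ ≤ Λ ^ 2 * (8 * h x ^ 2 + 2 * Λ ^ 2) :=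
          mul_le_mul_of_nonneg_right (hF' x) (by positivity)
  have e5 : ∑ x ∈ B, ∑ i, (g (x + Pi.single i 1) - g x) ^ 2
      ≤ Λ ^ 2 * (8 * Q + 2 * Λ ^ 2 * N) := by
    calc ∑ x ∈ B, ∑ i, (g (x + Pi.single i 1) - g x) ^ 2
        ≤ ∑ x ∈ B, Λ ^ 2 * (8 * h x ^ 2 + 2 * Λ ^ 2) := Finset.sum_le_sum e4
      _ = Λ ^ 2 * (8 * Q + 2 * Λ ^ 2 * N) := by
          rw [← Finset.mul_sum, Finset.sum_add_distrib, ← Finset.mul_sum, Finset.sum_const,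
            nsmul_eq_mul, hcard, ← hQ]
          ring
  obtain ⟨T, hT⟩ : ∃ T : ℝ, T = ∑ x ∈ B, h x ^ 4 := ⟨_, rfl⟩
  have e6 := hP g
  rw [var_identity, hcard] at e6
  have hg2 : ∑ x ∈ B, g x ^ 2 = T := by
    rw [hT]
    refine Finset.sum_congr rfl fun x _ => ?_
    rw [hg]
    ring
  have hgQ : ∑ x ∈ B, g x = Q := by
    rw [hQ]
    exact Finset.sum_congr rfl fun x _ => hg x
  rw [hg2, hgQ] at e6
  have e7 : 2 * N * T ≤ 2 * Q ^ 2
      + (m : ℝ) ^ 2 * N * (Λ ^ 2 * (8 * Q + 2 * Λ ^ 2 * N)) := by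
    have e := mul_le_mul_of_nonneg_left e5 hmN
    linarith
  have hP1 : (1 : ℝ) ≤ (m : ℝ) ^ 2 := by nlinarith
  have e11 : T ≤ (13 / 4) * ((m : ℝ) ^ 2) ^ 2 * Λ ^ 4 * N :=
    aux_arith ((m : ℝ) ^ 2) N Λ Q T hP1 hNpos hQ0 step1 e7
  -- Step 3: back to the differences of `F`.
  calc ∑ x ∈ B, ∑ y ∈ B, (F x - F y) ^ 4
      = ∑ x ∈ B, ∑ y ∈ B, (h x - h y) ^ 4 := by
        refine Finset.sum_congr rfl fun x _ => Finset.sum_congr rfl fun y _ => ?_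
        rw [hh, hh]
        ring
    _ ≤ ∑ x ∈ B, ∑ y ∈ B, 8 * (h x ^ 4 + h y ^ 4) :=
        Finset.sum_le_sum fun x _ => Finset.sum_le_sum fun y _ => aux_four _ _
    _ = 16 * N * T := by
        simp only [← Finset.mul_sum, Finset.sum_add_distrib, Finset.sum_const, nsmul_eq_mul,
          hcard, ← hT]
        ring
    _ ≤ 52 * (m : ℝ) ^ 4 * Λ ^ 4 * N ^ 2 := by
        have := mul_le_mul_of_nonneg_left e11 (by positivity : (0 : ℝ) ≤ 16 * N)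
        have e : 16 * N * ((13 / 4) * ((m : ℝ) ^ 2) ^ 2 * Λ ^ 4 * N)
            = 52 * (m : ℝ) ^ 4 * Λ ^ 4 * N ^ 2 := by ring
        linarith

end Vale.Agent.Lib.P249.H61
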